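import Vale.Agent.P024.M3.Spec

/-!
The transfer block `PropTR` of M3: the `σ`-invariants of the groups in `Lˣ` are the
corresponding groups of `Fˣ`.
-/

namespace Vale.Agent.P024.H422.TR

open NumberField IsDedekindDomain Vale.Agent.P024.M3

section

variable {F L : Type*} [Field F] [NumberField F] [Field L] [NumberField L] [Algebra F L]

/-- the prime of `F` under a prime of `L`. -/
noncomputable def dn (w : HeightOneSpectrum (𝓞 L)) : HeightOneSpectrum (𝓞 F) where
  asIdeal := w.asIdeal.under (𝓞 F)
  isPrime := inferInstance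
  ne_bot := by
    intro h
    exact w.ne_bot (Ideal.eq_bot_of_comap_eq_bot h)

instance (w : HeightOneSpectrum (𝓞 L)) : w.asIdeal.LiesOver (dn (F := F) w).asIdeal := ⟨rfl⟩

theorem mem_dn (p : ℕ) (w : HeightOneSpectrum (𝓞 L)) :
    (p : 𝓞 F) ∈ (dn (F := F) w).asIdeal ↔ (p : 𝓞 L) ∈ w.asIdeal := by
  show (p : 𝓞 F) ∈ w.asIdeal.under (𝓞 F) ↔ _
  rw [Ideal.under_def, Ideal.mem_comap, map_natCast]

theorem val_dn (w : HeightOneSpectrum (𝓞 L)) : ∃ e : ℕ, e ≠ 0 ∧ ∀ x : F,
    w.valuation L (algebraMap F L x) = (dn (F := F) w).valuation F x ^ e :=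
  ⟨_, Ideal.IsDedekindDomain.ramificationIdx'_ne_zero_of_liesOver w.asIdeal
    (dn (F := F) w).ne_bot, fun x => (HeightOneSpectrum.valuation_liesOver L (dn (F := F) w) w x).symm⟩

theorem exists_dn (v : HeightOneSpectrum (𝓞 F)) : ∃ w : HeightOneSpectrum (𝓞 L), dn (F := F) w = v := by
  have := v.isMaximal
  obtain ⟨P, hP, hPv⟩ := Ideal.exists_maximal_ideal_liesOver_of_isIntegral (S := 𝓞 L) v.asIdeal
  have hb : P ≠ ⊥ := by
    rintro rfl
    exact v.ne_bot (by
      rw [hPv.over, Ideal.under_bot])
  refine ⟨⟨P, hP.isPrime, hb⟩, ?_⟩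
  ext1
  exact hPv.over.symm

theorem pow_eq_one {a : WithZero (Multiplicative ℤ)} {e : ℕ} (he : e ≠ 0) : a ^ e = 1 ↔ a = 1 := by
  rw [_root_.pow_eq_one_iff, or_iff_left he]

theorem pow_le_pow {a b : WithZero (Multiplicative ℤ)} {e : ℕ} (he : e ≠ 0) :
    a ^ e ≤ b ^ e ↔ a ≤ b := pow_le_pow_iff_left₀ zero_le zero_le he

end

theorem propTR.{u} : PropTR.{u} := by
  intro F L _ _ _ _ _ _ σ hσ
  have hker : (dd σ).ker = (Units.map (algebraMap F L : F →* L)).range := by
    ext x
    constructor
    · intro hx
      have h1 : σ (x : L) = x := by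
        have h : (dd σ) x = 1 := hx
        have h' : Units.map (σ : L →* L) x = x := div_eq_one.mp h
        exact congrArg Units.val h'
      have h2 : ∀ τ : L ≃ₐ[F] L, τ (x : L) = x := by
        intro τ
        have hle : Subgroup.zpowers σ ≤ MulAction.stabilizer (L ≃ₐ[F] L) (x : L) := by
          rw [Subgroup.zpowers_le]
          exact h1
        exact hle (hσ τ)
      obtain ⟨y, hy⟩ := (IsGalois.mem_bot_iff_fixed (F := F) (E := L) (x : L)).mpr h2
      have hy' : algebraMap F L y = x := hy
      have hy0 : y ≠ 0 := by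
        rintro rfl
        exact x.ne_zero (by rw [← hy', map_zero])
      exact ⟨Units.mk0 y hy0, Units.ext hy'⟩
    · rintro ⟨y, rfl⟩
      show Units.map (σ : L →* L) _ / _ = 1
      rw [div_eq_one]
      ext
      exact σ.commutes (y : F)
  have key : ∀ (A : Subgroup Lˣ) (B : Subgroup Fˣ),
      (∀ y : Fˣ, Units.map (algebraMap F L : F →* L) y ∈ A ↔ y ∈ B) →
      A ⊓ (dd σ).ker = B.map (Units.map (algebraMap F L : F →* L)) := by
    intro A B h
    ext x
    rw [Subgroup.mem_inf, hker, Subgroup.mem_map]
    constructor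
    · rintro ⟨hA, y, rfl⟩
      exact ⟨y, (h y).mp hA, rfl⟩
    · rintro ⟨y, hy, rfl⟩
      exact ⟨(h y).mpr hy, y, rfl⟩
  refine ⟨hker, fun p _ => key _ _ fun y => ?_, fun p k _ => key _ _ fun y => ?_,
    fun v => key _ _ fun y => ?_⟩
  · constructor
    · intro h v hv
      obtain ⟨w, rfl⟩ := exists_dn (L := L) v
      obtain ⟨e, he, hval⟩ := val_dn (F := F) w
      have := h w ((mem_dn p w).mp hv)
      rw [Units.coe_map] at this
      rw [show ((algebraMap F L : F →* L) (y : F)) = algebraMap F L y from rfl, hval] at this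
      exact (pow_eq_one he).mp this
    · intro h w hw
      obtain ⟨e, he, hval⟩ := val_dn (F := F) w
      have := h (dn w) ((mem_dn p w).mpr hw)
      rw [Units.coe_map, show ((algebraMap F L : F →* L) (y : F)) = algebraMap F L y from rfl,
        hval, this, one_pow]
  · constructor
    · intro h v hv
      obtain ⟨w, rfl⟩ := exists_dn (L := L) v
      obtain ⟨e, he, hval⟩ := val_dn (F := F) w
      have := h w ((mem_dn p w).mp hv)
      rw [Units.coe_map, show ((algebraMap F L : F →* L) (y : F)) = algebraMap F L y from rfl,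
        ← map_one (algebraMap F L), ← map_natCast (algebraMap F L) p, ← map_pow, ← map_sub,
        hval, hval, hval, pow_eq_one he, pow_le_pow he] at this
      exact this
    · intro h w hw
      obtain ⟨e, he, hval⟩ := val_dn (F := F) w
      have := h (dn w) ((mem_dn p w).mpr hw)
      rw [Units.coe_map, show ((algebraMap F L : F →* L) (y : F)) = algebraMap F L y from rfl,
        ← map_one (algebraMap F L), ← map_natCast (algebraMap F L) p, ← map_pow, ← map_sub,
        hval, hval, hval, pow_eq_one he, pow_le_pow he]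
      exact this
  · constructor
    · intro h u hu
      obtain ⟨w, rfl⟩ := exists_dn (L := L) u
      obtain ⟨e, he, hval⟩ := val_dn (F := F) w
      have := h w (fun hh => hu (HeightOneSpectrum.ext hh))
      rw [Units.coe_map] at this
      rw [show ((algebraMap F L : F →* L) (y : F)) = algebraMap F L y from rfl, hval] at this
      exact (pow_eq_one he).mp this
    · intro h w hw
      obtain ⟨e, he, hval⟩ := val_dn (F := F) w
      have := h (dn w) (fun hh => hw (congrArg HeightOneSpectrum.asIdeal hh))
      rw [Units.coe_map, show ((algebraMap F L : F →* L) (y : F)) = algebraMap F L y from rfl,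
        hval, this, one_pow]

end Vale.Agent.P024.H422.TR
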