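import Vale.Agent.P024.M3.Spec

/-!
The block `PropH90` of M3: `h1 = e1` by Hilbert 90 (cyclic extensions, all universes).
-/

namespace Vale.Agent.P024.H422.H90

open Vale.Agent.P024.M3

variable {F L : Type*} [Field F] [Field L] [Algebra F L] [FiniteDimensional F L]

theorem coe_nn [IsGalois F L] (x : Lˣ) :
    ((nn F L x : Lˣ) : L) = algebraMap F L (Algebra.norm F (x : L)) := by
  rw [Algebra.norm_eq_prod_automorphisms]
  show ((∏ τ : L ≃ₐ[F] L, Units.map (τ : L →* L) x : Lˣ) : L) = _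
  rw [Units.coe_prod]
  rfl

theorem coe_nn' (x : Lˣ) : ((nn F L x : Lˣ) : L) = ∏ τ : L ≃ₐ[F] L, τ (x : L) := by
  show ((∏ τ : L ≃ₐ[F] L, Units.map (τ : L →* L) x : Lˣ) : L) = _
  rw [Units.coe_prod]
  rfl

theorem coe_dd (σ : L ≃ₐ[F] L) (x : Lˣ) : ((dd σ x : Lˣ) : L) = σ (x : L) / x := by
  show ((Units.map (σ : L →* L) x / x : Lˣ) : L) = _
  rw [Units.val_div_eq_div_val, Units.coe_map]
  rfl

/-- the norm along a generator. -/
theorem prod_range (σ : L ≃ₐ[F] L) (hσ : ∀ τ, τ ∈ Subgroup.zpowers σ) (f : (L ≃ₐ[F] L) → L) :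
    ∏ τ : L ≃ₐ[F] L, f τ = ∏ i ∈ Finset.range (orderOf σ), f (σ ^ i) := by
  classical
  symm
  refine Finset.prod_nbij (fun i => σ ^ i) (fun _ _ => Finset.mem_univ _) ?_ ?_ (fun _ _ => rfl)
  · intro i hi j hj h
    exact pow_injOn_Iio_orderOf (Finset.mem_range.mp (Finset.mem_coe.mp hi))
      (Finset.mem_range.mp (Finset.mem_coe.mp hj)) h
  · intro τ _
    obtain ⟨i, hi, h⟩ := Finset.mem_image.mp
      ((isOfFinOrder_of_finite σ).mem_zpowers_iff_mem_range_orderOf.mp (hσ τ))
    exact ⟨i, by simpa using hi, h⟩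

/-- Hilbert 90 for cyclic extensions. -/
theorem hilb90 (σ : L ≃ₐ[F] L) (hσ : ∀ τ, τ ∈ Subgroup.zpowers σ) (x : Lˣ)
    (hx : nn F L x = 1) : ∃ y : Lˣ, dd σ y = x := by
  classical
  set N := orderOf σ with hN
  let c : ℕ → L := fun i => ∏ j ∈ Finset.range i, (σ ^ j) (x : L)
  have hc : ∀ i, (x : L) * σ (c i) = c (i + 1) := by
    intro i
    show _ = ∏ j ∈ Finset.range (i + 1), (σ ^ j) (x : L)
    rw [Finset.prod_range_succ', mul_comm]
    congr 1
    show σ (∏ j ∈ Finset.range i, (σ ^ j) (x : L)) = _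
    rw [map_prod]
    refine Finset.prod_congr rfl fun j _ => ?_
    rw [pow_succ']
    rfl
  have hcN : c N = 1 := by
    have h := coe_nn' (F := F) x
    rw [hx, Units.val_one, prod_range σ hσ (fun τ => τ (x : L))] at h
    exact h.symm
  let β : L → L := fun z => ∑ i ∈ Finset.range N, c i * (σ ^ i) z
  have hβ : ∀ z, (x : L) * σ (β z) = β z := by
    intro z
    have h1 : (x : L) * σ (β z) = ∑ i ∈ Finset.range N, c (i + 1) * (σ ^ (i + 1)) z := by
      show (x : L) * σ (∑ i ∈ Finset.range N, c i * (σ ^ i) z) = _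
      rw [map_sum, Finset.mul_sum]
      refine Finset.sum_congr rfl fun i _ => ?_
      rw [map_mul, ← mul_assoc, hc, pow_succ']
      rfl
    have h2 : ∑ i ∈ Finset.range (N + 1), c i * (σ ^ i) z
        = β z + z := by
      rw [Finset.sum_range_succ, hcN, hN, pow_orderOf_eq_one, one_mul]
      rfl
    rw [Finset.sum_range_succ', ← h1] at h2
    have h3 : c 0 * (σ ^ 0) z = z := by
      show (∏ j ∈ Finset.range 0, (σ ^ j) (x : L)) * (σ ^ 0) z = z
      rw [Finset.prod_range_zero, one_mul, pow_zero]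
      rfl
    rw [h3] at h2
    exact add_right_cancel h2
  obtain ⟨z, hz⟩ : ∃ z, β z ≠ 0 := by
    by_contra hcon
    push Not at hcon
    have hind : LinearIndependent L (fun i : Fin N => ((σ ^ (i : ℕ) : L ≃ₐ[F] L) : L → L)) :=
      LinearIndependent.comp (ι' := Fin N) (linearIndependent_monoidHom L L)
        (fun i => ((σ ^ (i : ℕ) : L ≃ₐ[F] L) : L →* L))
        (fun i j h => Fin.ext (pow_injOn_Iio_orderOf (x := σ) i.2 j.2 (AlgEquiv.ext fun y => DFunLike.congr_fun h y)))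
    rw [Fintype.linearIndependent_iff] at hind
    have hpos : 0 < N := orderOf_pos σ
    have h0 := hind (fun i => c i) (by
      funext z
      have := hcon z
      rw [Finset.sum_apply]
      show ∑ i : Fin N, c i * (σ ^ (i : ℕ)) z = 0
      rw [Fin.sum_univ_eq_sum_range (fun i => c i * (σ ^ i) z)]
      exact this) ⟨0, hpos⟩
    have : c 0 = 1 := Finset.prod_range_zero _
    exact one_ne_zero (this.symm.trans h0)
  refine ⟨(Units.mk0 (β z) hz)⁻¹, Units.ext ?_⟩
  rw [coe_dd]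
  have h := hβ z
  have hs : σ (β z) ≠ 0 := fun h0 => hz (by rw [h0, mul_zero] at h; exact h.symm)
  rw [Units.val_inv_eq_inv_val, map_inv₀, Units.val_mk0, div_inv_eq_mul, inv_mul_eq_iff_eq_mul₀ hs]
  rw [mul_comm] at h
  exact h.symm

/-- Hilbert 90: the kernel of the norm is the image of `x ↦ σ x / x`. -/
theorem nn_ker [IsGalois F L] (σ : L ≃ₐ[F] L) (hσ : ∀ τ, τ ∈ Subgroup.zpowers σ) :
    (nn F L).ker = (dd σ).range := by
  ext x
  constructor
  · intro hx
    exact hilb90 σ hσ x hx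
  · rintro ⟨y, rfl⟩
    show nn F L (dd σ y) = 1
    apply Units.ext
    have hy : algebraMap F L (Algebra.norm F (y : L)) ≠ 0 := by
      rw [← coe_nn]
      exact Units.ne_zero _
    have hs : Algebra.norm F (σ (y : L)) = Algebra.norm F (y : L) :=
      Algebra.norm_eq_of_algEquiv σ (y : L)
    have h1 : Algebra.norm F (σ (y : L) / (y : L)) = 1 := by
      rw [div_eq_mul_inv, map_mul, hs, ← map_mul, mul_inv_cancel₀ y.ne_zero, map_one]
    rw [coe_nn, coe_dd, h1, map_one]
    rfl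

theorem propH90.{u} : PropH90.{u} := by
  intro F L _ _ _ _ _ σ hσ B
  have hle : (dd σ).ker ≤ B.comap (dd σ) := by
    intro x hx
    show dd σ x ∈ B
    rw [show dd σ x = 1 from hx]
    exact B.one_mem
  rw [h1, e1, nn_ker σ hσ, inf_comm, ← Subgroup.map_comap_eq, Subgroup.relIndex_map_map,
    sup_comm B, sup_eq_left.mpr hle]

end Vale.Agent.P024.H422.H90
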