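import Vale.Agent.P024.M3T.Spec
import Vale.Agent.P024.H422.TR

/-!
The transfer block `PropTRT`: the `σ`-invariants of the `T`-units of `L` are the `T`-units
of `F`.
-/

namespace Vale.Agent.P024.H422.TRT

open NumberField IsDedekindDomain Vale.Agent.P024.M3 Vale.Agent.P024.M3T
open Vale.Agent.P024.H422.TR

theorem ker_dd {F L : Type*} [Field F] [Field L] [Algebra F L] [FiniteDimensional F L]
    [IsGalois F L] (σ : L ≃ₐ[F] L) (hσ : ∀ τ, τ ∈ Subgroup.zpowers σ) :
    (dd σ).ker = (Units.map (algebraMap F L : F →* L)).range := by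
  ext x
  constructor
  · intro hx
    have h1 : σ (x : L) = x := by
      have h : (dd σ) x = 1 := hx
      have h' : Units.map (σ : L →* L) x = x := div_eq_one.mp h
      exact congrArg Units.val h'
    have h2 : ∀ τ : L ≃ₐ[F] L, τ (x : L) = x := by
      intro τ
      have hle : Subgroup.zpowers σ ≤ MulAction.stabilizer (L ≃ₐ[F] L) (x : L) := by
        rw [Subgroup.zpowers_le]
        exact h1
      exact hle (hσ τ)
    obtain ⟨y, hy⟩ := (IsGalois.mem_bot_iff_fixed (F := F) (E := L) (x : L)).mpr h2
    have hy' : algebraMap F L y = x := hy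
    have hy0 : y ≠ 0 := by
      rintro rfl
      exact x.ne_zero (by rw [← hy', map_zero])
    exact ⟨Units.mk0 y hy0, Units.ext hy'⟩
  · rintro ⟨y, rfl⟩
    show Units.map (σ : L →* L) _ / _ = 1
    rw [div_eq_one]
    ext
    exact σ.commutes (y : F)

theorem propTRT.{u} : PropTRT.{u} := by
  intro F L _ _ _ _ _ _ σ hσ T
  have hker := ker_dd σ hσ
  have h : ∀ y : Fˣ, Units.map (algebraMap F L : F →* L) y ∈ UUT L T ↔ y ∈ UFT T := by
    intro y
    constructor
    · intro h v hv
      obtain ⟨w, rfl⟩ := exists_dn (L := L) v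
      obtain ⟨e, he, hval⟩ := val_dn (F := F) w
      have := h w (fun u hu huw => hv (by
        have : dn (F := F) w = u := HeightOneSpectrum.ext huw
        rwa [this]))
      rw [Units.coe_map] at this
      rw [show ((algebraMap F L : F →* L) (y : F)) = algebraMap F L y from rfl, hval] at this
      exact (pow_eq_one he).mp this
    · intro h w hw
      obtain ⟨e, he, hval⟩ := val_dn (F := F) w
      have := h (dn w) (fun hT => hw _ hT rfl)
      rw [Units.coe_map, show ((algebraMap F L : F →* L) (y : F)) = algebraMap F L y from rfl,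
        hval, this, one_pow]
  ext x
  rw [Subgroup.mem_inf, hker, Subgroup.mem_map]
  constructor
  · rintro ⟨hA, y, rfl⟩
    exact ⟨y, (h y).mp hA, rfl⟩
  · rintro ⟨y, hy, rfl⟩
    exact ⟨(h y).mpr hy, y, rfl⟩

end Vale.Agent.P024.H422.TRT
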